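import Vale.Agent.P197.TS.Spec

/-!
# Tensor squares: the block BLK (P197, question Q2)

A positivity lemma on two subgroups meeting trivially, and the top data of rectangular content.
-/

namespace Vale.Agent.P197.TS.H44

open Equiv Finset

noncomputable section

section GroupLemma

variable {G : Type*} [Group G] [DecidableEq G]

/-- the coefficients of `A⁻ Γ⁺ A⁻` -/
def NN (s : G → ℤ) (A C : Finset G) (y : G) : ℤ :=
  ∑ a ∈ A, ∑ a' ∈ A, s a * s a' * (if a * y * a' ∈ C then 1 else 0)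

theorem NN_left (s : G → ℤ) (hs1 : s 1 = 1) (hs : ∀ g h, s (g * h) = s g * s h) (A C : Finset G)
    (hm : ∀ a ∈ A, ∀ b ∈ A, a * b ∈ A) (hi : ∀ a ∈ A, a⁻¹ ∈ A) (b : G) (hb : b ∈ A) (y : G) :
    NN s A C (b * y) = s b * NN s A C y := by
  have hsb : s b * s b⁻¹ = 1 := by rw [← hs, mul_inv_cancel, hs1]
  unfold NN
  rw [Finset.mul_sum]
  refine Finset.sum_bij' (fun a _ => a * b) (fun a _ => a * b⁻¹) ?_ ?_ ?_ ?_ ?_
  · intro a ha
    exact hm a ha b hb
  · intro a ha
    exact hm a ha _ (hi b hb)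
  · intro a _
    group
  · intro a _
    group
  · intro a _
    rw [Finset.mul_sum]
    refine Finset.sum_congr rfl (fun a' _ => ?_)
    have h1 : a * (b * y) * a' = a * b * y * a' := by group
    have h2 : s b * s b = 1 := by
      have h3 : s b * (s b * s b) * s b⁻¹ = s b * s b := by
        calc s b * (s b * s b) * s b⁻¹ = (s b * s b) * (s b * s b⁻¹) := by ring
          _ = s b * s b := by rw [hsb, mul_one]
      rcases Int.isUnit_iff.1 (IsUnit.of_mul_eq_one _ hsb) with h | h <;> rw [h] <;> norm_num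
    rw [h1, hs a b]
    calc s a * s a' * (if a * b * y * a' ∈ C then 1 else 0)
        = (s b * s b) * (s a * s a' * (if a * b * y * a' ∈ C then 1 else 0)) := by
          rw [h2, one_mul]
      _ = s b * (s a * s b * s a' * (if a * b * y * a' ∈ C then 1 else 0)) := by ring

theorem NN_right (s : G → ℤ) (hs1 : s 1 = 1) (hs : ∀ g h, s (g * h) = s g * s h)
    (A C : Finset G) (hm : ∀ a ∈ A, ∀ b ∈ A, a * b ∈ A) (hi : ∀ a ∈ A, a⁻¹ ∈ A) (b : G)
    (hb : b ∈ A) (y : G) : NN s A C (y * b) = s b * NN s A C y := by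
  have hsb : s b * s b⁻¹ = 1 := by rw [← hs, mul_inv_cancel, hs1]
  unfold NN
  rw [Finset.mul_sum]
  refine Finset.sum_congr rfl (fun a _ => ?_)
  rw [Finset.mul_sum]
  refine Finset.sum_bij' (fun a' _ => b * a') (fun a' _ => b⁻¹ * a') ?_ ?_ ?_ ?_ ?_
  · intro a' ha
    exact hm b hb a' ha
  · intro a' ha
    exact hm _ (hi b hb) a' ha
  · intro a' _
    group
  · intro a' _
    group
  · intro a' _
    have h1 : a * (y * b) * a' = a * y * (b * a') := by group
    have h2 : s b * s b = 1 := by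
      rcases Int.isUnit_iff.1 (IsUnit.of_mul_eq_one _ hsb) with h | h <;> rw [h] <;> norm_num
    rw [h1, hs b a']
    calc s a * s a' * (if a * y * (b * a') ∈ C then 1 else 0)
        = (s b * s b) * (s a * s a' * (if a * y * (b * a') ∈ C then 1 else 0)) := by
          rw [h2, one_mul]
      _ = s b * (s a * (s b * s a') * (if a * y * (b * a') ∈ C then 1 else 0)) := by ring

/-- the coefficient of `1` in `(A⁻ Γ⁺)²` is positive -/
theorem coeff_pos [Fintype G] (s : G → ℤ) (hs1 : s 1 = 1) (hs : ∀ g h, s (g * h) = s g * s h)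
    (A C : Finset G) (h1 : 1 ∈ A) (hm : ∀ a ∈ A, ∀ b ∈ A, a * b ∈ A) (hi : ∀ a ∈ A, a⁻¹ ∈ A)
    (hC : 1 ∈ C) (hAC : ∀ a ∈ A, a ∈ C → a = 1) : 0 < ∑ z ∈ C, NN s A C z := by
  have hinv : ∀ b : G, s b * s b⁻¹ = 1 := fun b => by rw [← hs, mul_inv_cancel, hs1]
  have hone : NN s A C 1 = (A.card : ℤ) := by
    unfold NN
    have h2 : ∀ a ∈ A, ∑ a' ∈ A, s a * s a' * (if a * 1 * a' ∈ C then 1 else 0) = 1 := by
      intro a ha
      rw [Finset.sum_eq_single a⁻¹]
      · rw [mul_one, mul_inv_cancel, if_pos hC, mul_one, hinv]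
      · intro b hb hne
        rw [if_neg, mul_zero]
        intro hab
        rw [mul_one] at hab
        have := hAC _ (hm a ha b hb) hab
        exact hne (eq_inv_of_mul_eq_one_right this)
      · intro hn
        exact absurd (hi a ha) hn
    rw [Finset.sum_congr rfl h2, Finset.sum_const, nsmul_eq_mul, mul_one]
  have hcard : 0 < (A.card : ℤ) := by
    exact_mod_cast Finset.card_pos.2 ⟨1, h1⟩
  have key : ∑ y : G, NN s A C y * NN s A C y = (A.card : ℤ) * ((A.card : ℤ) *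
      ∑ z ∈ C, NN s A C z) := by
    have e1 : ∀ y : G, NN s A C y * NN s A C y = ∑ a ∈ A, ∑ a' ∈ A,
        NN s A C y * (s a * s a' * (if a * y * a' ∈ C then 1 else 0)) := by
      intro y
      conv_lhs => rw [show NN s A C y * NN s A C y = NN s A C y * ∑ a ∈ A, ∑ a' ∈ A,
        s a * s a' * (if a * y * a' ∈ C then 1 else 0) from rfl]
      rw [Finset.mul_sum]
      exact Finset.sum_congr rfl (fun a _ => Finset.mul_sum _ _ _)
    rw [Finset.sum_congr rfl (fun y _ => e1 y), Finset.sum_comm]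
    have e2 : ∀ a ∈ A, ∑ y : G, ∑ a' ∈ A,
        NN s A C y * (s a * s a' * (if a * y * a' ∈ C then 1 else 0)) =
          (A.card : ℤ) * ∑ z ∈ C, NN s A C z := by
      intro a ha
      rw [Finset.sum_comm]
      have e3 : ∀ a' ∈ A, ∑ y : G,
          NN s A C y * (s a * s a' * (if a * y * a' ∈ C then 1 else 0)) =
            ∑ z ∈ C, NN s A C z := by
        intro a' ha'
        have e4 : ∑ y : G, NN s A C y * (s a * s a' * (if a * y * a' ∈ C then 1 else 0)) =
            ∑ z : G, NN s A C (a⁻¹ * (z * a'⁻¹)) *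
              (s a * s a' * (if z ∈ C then 1 else 0)) := by
          refine Finset.sum_bij' (fun y _ => a * y * a') (fun z _ => a⁻¹ * (z * a'⁻¹))
            (fun _ _ => Finset.mem_univ _) (fun _ _ => Finset.mem_univ _) ?_ ?_ ?_
          · intro y _
            group
          · intro z _
            group
          · intro y _
            have : a⁻¹ * (a * y * a' * a'⁻¹) = y := by group
            rw [this]
        rw [e4]
        have e5 : ∀ z : G, NN s A C (a⁻¹ * (z * a'⁻¹)) *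
            (s a * s a' * (if z ∈ C then 1 else 0)) = if z ∈ C then NN s A C z else 0 := by
          intro z
          rw [NN_left s hs1 hs A C hm hi _ (hi a ha), NN_right s hs1 hs A C hm hi _ (hi a' ha')]
          split_ifs with hz
          · calc s a⁻¹ * (s a'⁻¹ * NN s A C z) * (s a * s a' * 1)
                = (s a * s a⁻¹) * (s a' * s a'⁻¹) * NN s A C z := by ring
              _ = NN s A C z := by rw [hinv, hinv, one_mul, one_mul]
          · ring
        rw [Finset.sum_congr rfl (fun z _ => e5 z), Finset.sum_ite_mem, Finset.univ_inter]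
      rw [Finset.sum_congr rfl e3, Finset.sum_const, nsmul_eq_mul]
    rw [Finset.sum_congr rfl e2, Finset.sum_const, nsmul_eq_mul]
  have hpos : 0 < ∑ y : G, NN s A C y * NN s A C y := by
    refine Finset.sum_pos' (fun y _ => mul_self_nonneg _) ⟨1, Finset.mem_univ _, ?_⟩
    rw [hone]
    exact mul_pos hcard hcard
  rw [key] at hpos
  exact (mul_pos_iff_of_pos_left hcard).1 ((mul_pos_iff_of_pos_left hcard).1 hpos)

end GroupLemma

/-- the sign as an integer -/
def sg {Y : Type} [Fintype Y] [DecidableEq Y] (g : Perm Y) : ℤ := ((Perm.sign g : ℤˣ) : ℤ)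

/-- the integer form of the value at `h` -/
def Fz {Y : Type} [Fintype Y] [DecidableEq Y] (al ga : Y → ℕ) (C A : Finset (Perm Y))
    (h : Perm Y) : ℤ :=
  ∑ π ∈ C, ∑ π' ∈ A, sg π * (sg π' *
    (if (∀ x, al ((h * π) x) = al x) ∧ (∀ x, ga ((h * π') x) = ga x) then 1 else 0))

theorem comp_inv_eq_iff {Y : Type} (al : Y → ℕ) (g : Perm Y) :
    al ∘ ⇑(g⁻¹ : Perm Y) = al ↔ ∀ x, al (g x) = al x := by
  constructor
  · intro h x
    have := congrFun h (g x)
    rw [Function.comp_apply, inv_app] at this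
    exact this.symm
  · intro h
    funext x
    rw [Function.comp_apply, ← h (g⁻¹ x), app_inv]

theorem Fn_eq {Y : Type} [Fintype Y] [DecidableEq Y] (al ga i j : Y → ℕ) (h : Perm Y) :
    Fn (kform (fun u u' => if u = al ∧ u' = ga then 1 else 0)) (polyt j al) (polyt i ga) h =
      (Fz al ga (stab j) (stab i) h : ℂ) := by
  unfold Fn
  rw [bilin_polyt]
  unfold Fz
  rw [Int.cast_sum]
  refine Finset.sum_congr rfl (fun π _ => ?_)
  rw [Int.cast_sum]
  refine Finset.sum_congr rfl (fun π' _ => ?_)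
  rw [kform_single, one_mul, one_mul, Int.cast_mul, Int.cast_mul]
  have e1 := comp_inv_eq_iff al (h * π)
  have e2 := comp_inv_eq_iff ga (h * π')
  by_cases hc : (∀ x, al ((h * π) x) = al x) ∧ (∀ x, ga ((h * π') x) = ga x)
  · rw [if_pos hc, if_pos ⟨e1.2 hc.1, e2.2 hc.2⟩, Int.cast_one]
    rfl
  · rw [if_neg hc, if_neg (fun h' => hc ⟨e1.1 h'.1, e2.1 h'.2⟩), Int.cast_zero]
    rfl

theorem stab_comp {Y : Type} [Fintype Y] [DecidableEq Y] (rl cl : Y → ℕ) (F : Perm Y → ℤ)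
    (FC : Perm Y → ℂ) (hF : ∀ h, FC h = (F h : ℂ))
    (hinv : ∀ ρ ∈ stab rl, ∀ h, F (ρ * h) = F h) :
    occ rl cl FC = (((stab rl).card * ∑ τ ∈ stab cl, sg τ * F τ : ℤ) : ℂ) := by
  unfold occ
  have h1 : ∀ ρ ∈ stab rl, ∑ π ∈ stab cl, ((Perm.sign π : ℤ) : ℂ) * FC (ρ * π) =
      ((∑ τ ∈ stab cl, sg τ * F τ : ℤ) : ℂ) := by
    intro ρ hρ
    push_cast
    refine Finset.sum_congr rfl (fun τ _ => ?_)
    rw [hF, hinv ρ hρ]
    rfl
  rw [Finset.sum_congr rfl h1, Finset.sum_const, nsmul_eq_mul]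
  push_cast
  ring

/-- the group sum equals the coefficient of `coeff_pos` -/
theorem sum_eq_coeff {Y : Type} [Fintype Y] [DecidableEq Y] (bl al ga j i cl : Y → ℕ)
    (hj : ∀ y z, j y = j z ↔ bl y = bl z ∧ ga y = ga z)
    (hi : ∀ y z, i y = i z ↔ bl y = bl z ∧ al y = al z)
    (hcl : ∀ y z, cl y = cl z ↔ bl y = bl z) :
    ∑ τ ∈ stab cl, sg τ * Fz al ga (stab j) (stab i) τ =
      ∑ z ∈ stab j, NN sg (stab i) (stab j) z := by
  have mi : ∀ g : Perm Y, g ∈ stab i ↔ (∀ x, bl (g x) = bl x) ∧ ∀ x, al (g x) = al x := by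
    intro g
    rw [mem_stab]
    constructor
    · intro h
      exact ⟨fun x => ((hi _ _).1 (h x)).1, fun x => ((hi _ _).1 (h x)).2⟩
    · intro h x
      exact (hi _ _).2 ⟨h.1 x, h.2 x⟩
  have mj : ∀ g : Perm Y, g ∈ stab j ↔ (∀ x, bl (g x) = bl x) ∧ ∀ x, ga (g x) = ga x := by
    intro g
    rw [mem_stab]
    constructor
    · intro h
      exact ⟨fun x => ((hj _ _).1 (h x)).1, fun x => ((hj _ _).1 (h x)).2⟩
    · intro h x
      exact (hj _ _).2 ⟨h.1 x, h.2 x⟩
  have mc : ∀ g : Perm Y, g ∈ stab cl ↔ ∀ x, bl (g x) = bl x := by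
    intro g
    rw [mem_stab]
    exact forall_congr' fun x => hcl _ _
  have hs : ∀ g h : Perm Y, sg (g * h) = sg g * sg h := by
    intro g h
    unfold sg
    rw [Perm.sign_mul]
    push_cast
    rfl
  have e1 : ∀ τ ∈ stab cl, sg τ * Fz al ga (stab j) (stab i) τ =
      ∑ π ∈ stab j, ∑ π' ∈ stab i, (if τ * π ∈ stab i then
        sg (τ * π) * sg π' * (if τ * π * π⁻¹ * π' ∈ stab j then 1 else 0) else 0) := by
    intro τ hτ
    rw [mc] at hτ
    unfold Fz
    rw [Finset.mul_sum]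
    refine Finset.sum_congr rfl (fun π hπ => ?_)
    rw [Finset.mul_sum]
    refine Finset.sum_congr rfl (fun π' hπ' => ?_)
    have hπ2 := (mj π).1 hπ
    have hπ2' := (mi π').1 hπ'
    have c1 : (∀ x, al ((τ * π) x) = al x) ↔ τ * π ∈ stab i := by
      rw [mi]
      refine ⟨fun h => ⟨fun x => ?_, h⟩, fun h => h.2⟩
      rw [Perm.mul_apply, hτ, hπ2.1]
    have c2 : (∀ x, ga ((τ * π') x) = ga x) ↔ τ * π * π⁻¹ * π' ∈ stab j := by
      rw [mul_inv_cancel_right, mj]
      refine ⟨fun h => ⟨fun x => ?_, h⟩, fun h => h.2⟩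
      rw [Perm.mul_apply, hτ, hπ2'.1]
    rw [if_congr (and_congr c1 c2) rfl rfl, hs]
    by_cases h1 : τ * π ∈ stab i
    · by_cases h2 : τ * π * π⁻¹ * π' ∈ stab j
      · rw [if_pos ⟨h1, h2⟩, if_pos h1, if_pos h2]
        ring
      · rw [if_neg (fun h => h2 h.2), if_pos h1, if_neg h2]
        ring
    · rw [if_neg (fun h => h1 h.1), if_neg h1]
      ring
  rw [Finset.sum_congr rfl e1, Finset.sum_comm]
  have e2 : ∀ π ∈ stab j, ∑ τ ∈ stab cl, ∑ π' ∈ stab i, (if τ * π ∈ stab i then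
      sg (τ * π) * sg π' * (if τ * π * π⁻¹ * π' ∈ stab j then 1 else 0) else 0) =
      NN sg (stab i) (stab j) π⁻¹ := by
    intro π hπ
    have hπ2 := (mj π).1 hπ
    rw [Finset.sum_comm]
    unfold NN
    rw [Finset.sum_comm (s := stab i) (t := stab i)]
    refine Finset.sum_congr rfl (fun π' _ => ?_)
    have e3 : ∑ τ ∈ stab cl, (if τ * π ∈ stab i then
        sg (τ * π) * sg π' * (if τ * π * π⁻¹ * π' ∈ stab j then 1 else 0) else 0) =
        ∑ τ : Perm Y, (if τ * π ∈ stab i then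
        sg (τ * π) * sg π' * (if τ * π * π⁻¹ * π' ∈ stab j then 1 else 0) else 0) := by
      refine Finset.sum_subset (Finset.subset_univ _) ?_
      intro τ _ hτ
      rw [if_neg]
      intro h
      apply hτ
      rw [mc]
      intro x
      have h1 := ((mi _).1 h).1 (π⁻¹ x)
      rw [Perm.mul_apply, app_inv] at h1
      have h2 := hπ2.1 (π⁻¹ x)
      rw [app_inv] at h2
      rw [h1, h2]
    rw [e3]
    have e4 : ∑ τ : Perm Y, (if τ * π ∈ stab i then
        sg (τ * π) * sg π' * (if τ * π * π⁻¹ * π' ∈ stab j then 1 else 0) else 0) =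
        ∑ a : Perm Y, (if a ∈ stab i then
          sg a * sg π' * (if a * π⁻¹ * π' ∈ stab j then 1 else 0) else 0) :=
      Equiv.sum_comp (Equiv.mulRight π) (fun a : Perm Y => if a ∈ stab i then
        sg a * sg π' * (if a * π⁻¹ * π' ∈ stab j then 1 else 0) else 0)
    rw [e4, Finset.sum_ite_mem, Finset.univ_inter]
  rw [Finset.sum_congr rfl e2]
  refine Finset.sum_bij' (fun π _ => π⁻¹) (fun π _ => π⁻¹) ?_ ?_ ?_ ?_ ?_
  · intro π hπ
    exact Conj.inv_mem_stab hπ
  · intro π hπ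
    exact Conj.inv_mem_stab hπ
  · intro π _
    exact inv_inv π
  · intro π _
    exact inv_inv π
  · intro π _
    rfl

/-- nonvanishing for the pair of words -/
theorem block_core {Y : Type} [Fintype Y] [DecidableEq Y] (bl al ga j i rl cl : Y → ℕ)
    (hj : ∀ y z, j y = j z ↔ bl y = bl z ∧ ga y = ga z)
    (hi : ∀ y z, i y = i z ↔ bl y = bl z ∧ al y = al z)
    (hinj : ∀ y z, bl y = bl z → al y = al z → ga y = ga z → y = z)
    (hcl : ∀ y z, cl y = cl z ↔ bl y = bl z)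
    (hrl : ∀ y z, rl y = rl z → al y = al z ∧ ga y = ga z) :
    occ rl cl (Fn (kform (fun u u' => if u = al ∧ u' = ga then 1 else 0)) (polyt j al)
      (polyt i ga)) ≠ 0 := by
  rw [stab_comp rl cl (Fz al ga (stab j) (stab i)) _ (fun h => Fn_eq al ga i j h) ?_]
  · rw [Int.cast_ne_zero, sum_eq_coeff bl al ga j i cl hj hi hcl]
    refine mul_ne_zero ?_ (ne_of_gt ?_)
    · rw [Nat.cast_ne_zero]
      exact Finset.card_ne_zero_of_mem (Conj.one_mem_stab rl)
    · refine coeff_pos sg ?_ ?_ (stab i) (stab j) (Conj.one_mem_stab i)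
        (fun a ha b hb => Conj.mul_mem_stab ha hb) (fun a ha => Conj.inv_mem_stab ha) (Conj.one_mem_stab j) ?_
      · unfold sg
        rw [Perm.sign_one]
        rfl
      · intro g h
        unfold sg
        rw [Perm.sign_mul]
        push_cast
        rfl
      · intro a ha hb
        rw [mem_stab] at ha hb
        ext x
        have h1 := (hi _ _).1 (ha x)
        have h2 := (hj _ _).1 (hb x)
        exact hinj _ _ h1.1 h1.2 h2.2
  · intro ρ hρ h
    rw [mem_stab] at hρ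
    unfold Fz
    refine Finset.sum_congr rfl (fun π _ => Finset.sum_congr rfl (fun π' _ => ?_))
    have c1 : ∀ g : Perm Y, (∀ x, al ((ρ * h * g) x) = al x) ↔ ∀ x, al ((h * g) x) = al x := by
      intro g
      refine forall_congr' fun x => ?_
      rw [mul_assoc, Perm.mul_apply, (hrl _ _ (hρ ((h * g) x))).1]
    have c2 : ∀ g : Perm Y, (∀ x, ga ((ρ * h * g) x) = ga x) ↔ ∀ x, ga ((h * g) x) = ga x := by
      intro g
      refine forall_congr' fun x => ?_
      rw [mul_assoc, Perm.mul_apply, (hrl _ _ (hρ ((h * g) x))).2]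
    rw [if_congr (and_congr (c1 π) (c2 π')) rfl rfl]

/-- the row letter -/
def al0 {w e : ℕ} : (Fin w × Fin 4 × Fin 4) ⊕ Fin e → ℕ
  | Sum.inl p => p.2.1
  | Sum.inr _ => 0

/-- the column letter -/
def ga0 {w e : ℕ} : (Fin w × Fin 4 × Fin 4) ⊕ Fin e → ℕ
  | Sum.inl p => p.2.2
  | Sum.inr _ => 0

/-- the columns of the first tableau -/
def J0 {w e : ℕ} : (Fin w × Fin 4 × Fin 4) ⊕ Fin e → ℕ
  | Sum.inl p => 4 * p.1 + p.2.2
  | Sum.inr s => 4 * w + s

/-- the columns of the second tableau -/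
def I0 {w e : ℕ} : (Fin w × Fin 4 × Fin 4) ⊕ Fin e → ℕ
  | Sum.inl p => 4 * (w - 1 - p.1) + p.2.1
  | Sum.inr s => 4 * w + s

theorem J0_iff {w e : ℕ} (y z : (Fin w × Fin 4 × Fin 4) ⊕ Fin e) :
    J0 y = J0 z ↔ blk y = blk z ∧ ga0 y = ga0 z := by
  rcases y with ⟨⟨q, hq⟩, ⟨a, ha⟩, ⟨g, hg⟩⟩ | ⟨s, hs⟩ <;>
    rcases z with ⟨⟨q', hq'⟩, ⟨a', ha'⟩, ⟨g', hg'⟩⟩ | ⟨s', hs'⟩ <;>
    simp only [J0, blk, ga0, and_true] <;> omega

theorem I0_iff {w e : ℕ} (y z : (Fin w × Fin 4 × Fin 4) ⊕ Fin e) :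
    I0 y = I0 z ↔ blk y = blk z ∧ al0 y = al0 z := by
  rcases y with ⟨⟨q, hq⟩, ⟨a, ha⟩, ⟨g, hg⟩⟩ | ⟨s, hs⟩ <;>
    rcases z with ⟨⟨q', hq'⟩, ⟨a', ha'⟩, ⟨g', hg'⟩⟩ | ⟨s', hs'⟩ <;>
    simp only [I0, blk, al0, and_true] <;> omega

theorem inj0 {w e : ℕ} (y z : (Fin w × Fin 4 × Fin 4) ⊕ Fin e) (h1 : blk y = blk z)
    (h2 : al0 y = al0 z) (h3 : ga0 y = ga0 z) : y = z := by
  rcases y with ⟨q, a, g⟩ | s <;> rcases z with ⟨q', a', g'⟩ | s' <;>
    simp only [blk, al0, ga0] at h1 h2 h3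
  · rw [Fin.ext h1, Fin.ext h2, Fin.ext h3]
  · have := q.2
    omega
  · have := q'.2
    omega
  · have e1 : s = s' := Fin.ext (by omega)
    rw [e1]

theorem isTop1 {w e : ℕ} : IsTop w e (al0 (w := w) (e := e)) J0 := by
  refine ⟨?_, ?_, ?_⟩
  · rintro (⟨⟨q, hq⟩, ⟨a, ha⟩, ⟨g, hg⟩⟩ | ⟨s, hs⟩)
    · refine Or.inl ⟨ha, ?_⟩
      show 4 * q + g < 4 * w
      omega
    · refine Or.inr ⟨rfl, ?_⟩
      show 4 * w + s < 4 * w + e
      omega
  · intro y z h1 h2
    have h3 := (J0_iff y z).1 h2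
    exact inj0 y z h3.1 h1 h3.2
  · intro a c h
    by_cases hc : c < 4 * w
    · have ha : a < 4 := by
        rcases h with h | h
        · exact h.1
        · omega
      refine ⟨Sum.inl (⟨c / 4, by omega⟩, ⟨a, ha⟩, ⟨c % 4, by omega⟩), rfl, ?_⟩
      simp only [J0]
      omega
    · have h' : a = 0 ∧ c < 4 * w + e := by
        rcases h with h | h
        · omega
        · exact h
      refine ⟨Sum.inr ⟨c - 4 * w, by omega⟩, h'.1.symm, ?_⟩
      simp only [J0]
      omega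

theorem isTop2 {w e : ℕ} : IsTop w e (ga0 (w := w) (e := e)) I0 := by
  refine ⟨?_, ?_, ?_⟩
  · rintro (⟨⟨q, hq⟩, ⟨a, ha⟩, ⟨g, hg⟩⟩ | ⟨s, hs⟩)
    · refine Or.inl ⟨hg, ?_⟩
      show 4 * (w - 1 - q) + a < 4 * w
      omega
    · refine Or.inr ⟨rfl, ?_⟩
      show 4 * w + s < 4 * w + e
      omega
  · intro y z h1 h2
    have h3 := (I0_iff y z).1 h2
    exact inj0 y z h3.1 h3.2 h1
  · intro a c h
    by_cases hc : c < 4 * w
    · have ha : a < 4 := by
        rcases h with h | h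
        · exact h.1
        · omega
      refine ⟨Sum.inl (⟨w - 1 - c / 4, by omega⟩, ⟨c % 4, by omega⟩, ⟨a, ha⟩), rfl, ?_⟩
      simp only [I0]
      omega
    · have h' : a = 0 ∧ c < 4 * w + e := by
        rcases h with h | h
        · omega
        · exact h
      refine ⟨Sum.inr ⟨c - 4 * w, by omega⟩, h'.1.symm, ?_⟩
      simp only [I0]
      omega

theorem isTop_comp {Y T : Type} (φ : Y ≃ T) (w e : ℕ) (r j : T → ℕ) (h : IsTop w e r j) :
    IsTop w e (fun y => r (φ y)) (fun y => j (φ y)) := by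
  refine ⟨fun y => h.mem _, fun y z h1 h2 => φ.injective (h.inj _ _ h1 h2), ?_⟩
  intro a c hac
  obtain ⟨t, h1, h2⟩ := h.surj a c hac
  refine ⟨φ.symm t, ?_, ?_⟩
  · show r (φ (φ.symm t)) = a
    rw [Equiv.apply_symm_apply, h1]
  · show j (φ (φ.symm t)) = c
    rw [Equiv.apply_symm_apply, h2]

/-- (BLK) -/
theorem block : PBlock := by
  intro Y _ _ w e b φ rl cl hb hcl hrl
  refine ⟨fun y => al0 (φ y), fun y => J0 (φ y), fun y => ga0 (φ y), fun y => I0 (φ y),
    isTop_comp φ w e _ _ isTop1, isTop_comp φ w e _ _ isTop2, ?_,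
    fun u u' => if u = (fun y => al0 (φ y)) ∧ u' = (fun y => ga0 (φ y)) then 1 else 0, ?_⟩
  · intro y
    show b ≤ J0 (φ y) ∨ b ≤ I0 (φ y)
    rcases φ y with ⟨⟨q, hq⟩, ⟨a, ha⟩, ⟨g, hg⟩⟩ | ⟨s, hs⟩ <;> simp only [J0, I0] <;> omega
  · refine block_core (fun y => blk (φ y)) _ _ _ _ rl cl (fun y z => J0_iff _ _)
      (fun y z => I0_iff _ _) (fun y z h1 h2 h3 => φ.injective (inj0 _ _ h1 h2 h3)) hcl ?_
    intro y z hyz
    have h0 := hrl y z hyz
    show al0 (φ y) = al0 (φ z) ∧ ga0 (φ y) = ga0 (φ z)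
    revert h0
    rcases φ y with ⟨⟨q, hq⟩, ⟨a, ha⟩, ⟨g, hg⟩⟩ | ⟨s, hs⟩ <;>
      rcases φ z with ⟨⟨q', hq'⟩, ⟨a', ha'⟩, ⟨g', hg'⟩⟩ | ⟨s', hs'⟩ <;> intro h0 <;>
      simp only [ltr, Prod.mk.injEq] at h0 <;> simp only [al0, ga0, and_true] <;> omega

end

end Vale.Agent.P197.TS.H44
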