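import Vale.Agent.P197.TS.GSpec

/-!
# Tensor squares: the block REG (P197, question Q2)

Two applications of the gap lemma, for a partition with a long first row or a large rectangle.
-/

namespace Vale.Agent.P197.TS.H44

open Equiv Finset

noncomputable section

/-- A bijection from `Y` onto `T` from labels. -/
theorem exists_equiv {Y T : Type} (rl cl : Y → ℕ)
    (hinj : ∀ x y, rl x = rl y → cl x = cl y → x = y) (f g : T → ℕ)
    (hfg : ∀ s t, f s = f t → g s = g t → s = t)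
    (hY : ∀ y, ∃ t, f t = rl y ∧ g t = cl y) (hT : ∀ t, ∃ y, rl y = f t ∧ cl y = g t) :
    ∃ φ : Y ≃ T, ∀ y, f (φ y) = rl y ∧ g (φ y) = cl y := by
  choose F hF using hY
  have hb : Function.Bijective F := by
    constructor
    · intro x y hxy
      have h1 := hF x
      have h2 := hF y
      rw [hxy] at h1
      exact hinj x y (h1.1.symm.trans h2.1) (h1.2.symm.trans h2.2)
    · intro t
      obtain ⟨y, hy1, hy2⟩ := hT t
      refine ⟨y, ?_⟩
      obtain ⟨h1, h2⟩ := hF y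
      exact hfg _ _ (h1.trans hy1) (h2.trans hy2)
  exact ⟨Equiv.ofBijective F hb, fun y => hF y⟩

/-- the two gap steps -/
theorem two_step (hG : PGap) (hO : POccT) (hU : PUniv) {X : Type} [Fintype X] [DecidableEq X]
    (w e k : ℕ) (lam B B' : YoungDiagram) (hw : 1 ≤ w)
    (hs1 : IsStack w e B lam) (hBB : B'.transpose = B) (hs2 : IsStack (w - 1) e (staircase k) B')
    (hb : B.rowLen 0 = k + 4) (hk : (staircase k).rowLen 0 = k) (rl cl : X → ℕ)
    (hinj : ∀ x y, rl x = rl y → cl x = cl y → x = y)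
    (hcard : Fintype.card X = 32 * w + 2 * e - 16 + k * (k + 1) / 2)
    (Q : X → Prop) [DecidablePred Q] (bd1 : ℕ → ℕ) (hQ : ∀ x, ¬ Q x ↔ rl x < bd1 (cl x))
    (Q2 : {x // Q x} → Prop) [DecidablePred Q2] (bd2 : ℕ → ℕ)
    (hQ2 : ∀ x : {x // Q x}, ¬ Q2 x ↔ rl x.1 < bd2 (cl x.1))
    (c1 : Fintype.card {x // ¬ Q x} = 16 * w + e)
    (c2 : Fintype.card {x : {x // Q x} // ¬ Q2 x} = 16 * (w - 1) + e)
    (t1 : TD w e (k + 4) (resW (fun x => ¬ Q x) rl) (resW (fun x => ¬ Q x) cl))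
    (t2 : TD (w - 1) e k (resW (fun x => ¬ Q2 x) (resW Q rl))
      (resW (fun x => ¬ Q2 x) (resW Q cl))) :
    Occ lam lam rl cl := by
  refine hG X Q w e B lam hs1 rl cl bd1 hQ ?_ ?_
  · rw [hb]
    exact t1
  · rw [← hBB]
    refine hO _ B' _ _ ?_
    refine hG _ Q2 (w - 1) e (staircase k) B' hs2 _ _ bd2 hQ2 ?_ ?_
    · rw [hk]
      exact t2
    · refine hU k _ ?_ _ _ ?_
      · have e1 : Fintype.card {x // Q x} + Fintype.card {x // ¬ Q x} = Fintype.card X := by
          rw [Fintype.card_subtype_compl]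
          have := Fintype.card_subtype_le Q
          omega
        have e2 : Fintype.card {x : {x // Q x} // Q2 x} +
            Fintype.card {x : {x // Q x} // ¬ Q2 x} = Fintype.card {x // Q x} := by
          rw [Fintype.card_subtype_compl]
          have := Fintype.card_subtype_le Q2
          omega
        omega
      · intro x y h1 h2
        exact Subtype.ext (Subtype.ext (hinj _ _ h1 h2))

/-- the case of a long first row -/
theorem reg_row (hG : PGap) (hO : POccT) (hU : PUniv) (hT : PTriv) {X : Type} [Fintype X]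
    [DecidableEq X] (w e k : ℕ) (lam B B' nu : YoungDiagram) (hkw : 2 * k + 11 ≤ 4 * w)
    (hs1 : IsStack w e B lam) (hBB : B'.transpose = B) (hs2 : IsStack (w - 1) e (staircase k) B')
    (hb : B.rowLen 0 = k + 4) (hk : (staircase k).rowLen 0 = k)
    (hcard : Fintype.card X = 32 * w + 2 * e - 16 + k * (k + 1) / 2) (rl cl : X → ℕ)
    (hl : IsLabel nu.cells rl cl) (hrow : 32 * w + 2 * e - 16 ≤ nu.rowLen 0) :
    Occ lam lam rl cl := by
  classical
  have hex : ∀ c, c < 32 * w + 2 * e - 16 → ∃ x, rl x = 0 ∧ cl x = c := by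
    intro c hc
    refine hl.surj (0, c) ?_
    rw [YoungDiagram.mem_cells, YoungDiagram.mem_iff_lt_rowLen]
    omega
  set bd1 : ℕ → ℕ := fun c => if c < 16 * w + e then 1 else 0 with hbd1
  set bd2 : ℕ → ℕ := fun c => if 16 * w + e ≤ c ∧ c < 32 * w + 2 * e - 16 then 1 else 0 with hbd2
  have hQ : ∀ x, ¬ (bd1 (cl x) ≤ rl x) ↔ rl x < bd1 (cl x) := fun x => not_le
  have hQ2 : ∀ x : {x // bd1 (cl x) ≤ rl x},
      ¬ (bd2 (cl x.1) ≤ rl x.1) ↔ rl x.1 < bd2 (cl x.1) := fun x => not_le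
  have b1 : ∀ r c, r < bd1 c → r = 0 ∧ c < 16 * w + e := by
    intro r c h
    simp only [hbd1] at h
    split_ifs at h with h1
    · exact ⟨by omega, h1⟩
    · omega
  have b1' : ∀ c, c < 16 * w + e → 0 < bd1 c := by
    intro c h
    simp only [hbd1]
    rw [if_pos h]
    exact one_pos
  have b2 : ∀ r c, r < bd2 c → r = 0 ∧ 16 * w + e ≤ c ∧ c < 32 * w + 2 * e - 16 := by
    intro r c h
    simp only [hbd2] at h
    split_ifs at h with h1
    · exact ⟨by omega, h1⟩
    · omega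
  have b2' : ∀ c, 16 * w + e ≤ c → c < 32 * w + 2 * e - 16 → 0 < bd2 c := by
    intro c h h'
    simp only [hbd2]
    rw [if_pos ⟨h, h'⟩]
    exact one_pos
  obtain ⟨φ, hφ⟩ := exists_equiv (Y := {x // ¬ (bd1 (cl x) ≤ rl x)}) (T := Fin (16 * w + e))
    (fun y => rl y.1) (fun y => cl y.1)
    (fun x y h1 h2 => Subtype.ext (hl.inj _ _ h1 h2)) (fun _ => 0) (fun s => s)
    (fun s t _ h => Fin.ext h)
    (fun y => by
      obtain ⟨h1, h2⟩ := b1 _ _ ((hQ y.1).1 y.2)
      exact ⟨⟨cl y.1, h2⟩, h1.symm, rfl⟩)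
    (fun s => by
      obtain ⟨x, hx1, hx2⟩ := hex s (by have := s.2; omega)
      refine ⟨⟨x, (hQ x).2 ?_⟩, hx1, hx2⟩
      rw [hx1, hx2]
      exact b1' _ s.2)
  obtain ⟨ψ, hψ⟩ := exists_equiv
    (Y := {x : {x // bd1 (cl x) ≤ rl x} // ¬ (bd2 (cl x.1) ≤ rl x.1)})
    (T := Fin (16 * (w - 1) + e))
    (fun y => rl y.1.1) (fun y => cl y.1.1)
    (fun x y h1 h2 => Subtype.ext (Subtype.ext (hl.inj _ _ h1 h2))) (fun _ => 0)
    (fun s => 16 * w + e + s)
    (fun s t _ h => Fin.ext (by omega))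
    (fun y => by
      obtain ⟨h1, h2, h3⟩ := b2 _ _ ((hQ2 y.1).1 y.2)
      exact ⟨⟨cl y.1.1 - (16 * w + e), by omega⟩, h1.symm, by
        show 16 * w + e + (cl y.1.1 - (16 * w + e)) = cl y.1.1
        omega⟩)
    (fun s => by
      have hs := s.2
      obtain ⟨x, hx1, hx2⟩ := hex (16 * w + e + s) (by omega)
      refine ⟨⟨⟨x, ?_⟩, ?_⟩, hx1, hx2⟩
      · by_contra hne
        have := (b1 _ _ ((hQ x).1 hne)).2
        omega
      · refine (hQ2 ⟨x, _⟩).2 ?_
        show rl x < bd2 (cl x)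
        rw [hx1, hx2]
        exact b2' _ (by omega) (by omega))
  have c1 : Fintype.card {x // ¬ (bd1 (cl x) ≤ rl x)} = 16 * w + e := by
    rw [Fintype.card_congr φ, Fintype.card_fin]
  have c2 : Fintype.card {x : {x // bd1 (cl x) ≤ rl x} // ¬ (bd2 (cl x.1) ≤ rl x.1)} =
      16 * (w - 1) + e := by
    rw [Fintype.card_congr ψ, Fintype.card_fin]
  refine two_step hG hO hU w e k lam B B' (by omega) hs1 hBB hs2 hb hk rl cl hl.inj hcard
    (fun x => bd1 (cl x) ≤ rl x) bd1 hQ (fun x => bd2 (cl x.1) ≤ rl x.1) bd2 hQ2 c1 c2 ?_ ?_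
  · refine hT _ w e (k + 4) _ _ c1 ?_ (by omega)
    intro x y hxy
    have h1 := (b1 _ _ ((hQ x.1).1 x.2)).1
    have h2 := (b1 _ _ ((hQ y.1).1 y.2)).1
    exact Subtype.ext (hl.inj _ _ (h1.trans h2.symm) hxy)
  · refine hT _ (w - 1) e k _ _ c2 ?_ (by omega)
    intro x y hxy
    have h1 := (b2 _ _ ((hQ2 x.1).1 x.2)).1
    have h2 := (b2 _ _ ((hQ2 y.1).1 y.2)).1
    exact Subtype.ext (Subtype.ext (hl.inj _ _ (h1.trans h2.symm) hxy))

/-- the case of a large rectangle -/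
theorem reg_rect (hG : PGap) (hO : POccT) (hU : PUniv) (hB : PBlock) {X : Type} [Fintype X]
    [DecidableEq X] (w e k : ℕ) (lam B B' nu : YoungDiagram) (hkw : 2 * k + 11 ≤ 4 * w)
    (he : e ≤ 15)
    (hs1 : IsStack w e B lam) (hBB : B'.transpose = B) (hs2 : IsStack (w - 1) e (staircase k) B')
    (hb : B.rowLen 0 = k + 4) (hk : (staircase k).rowLen 0 = k)
    (hcard : Fintype.card X = 32 * w + 2 * e - 16 + k * (k + 1) / 2) (rl cl : X → ℕ)
    (hl : IsLabel nu.cells rl cl) (hrect : (31, w + 31) ∈ nu) :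
    Occ lam lam rl cl := by
  classical
  have hex : ∀ a c, a ≤ 31 → c ≤ w + 31 → ∃ x, rl x = a ∧ cl x = c := by
    intro a c ha hc
    refine hl.surj (a, c) ?_
    rw [YoungDiagram.mem_cells]
    exact YoungDiagram.up_left_mem nu ha hc hrect
  set bd1 : ℕ → ℕ := fun c => if c < w then 16 else if c < w + e then 1 else 0 with hbd1
  set bd2 : ℕ → ℕ := fun c => if c < w - 1 then 32 else if w + e ≤ c ∧ c < w + 2 * e then 1 else 0
    with hbd2
  have hQ : ∀ x, ¬ (bd1 (cl x) ≤ rl x) ↔ rl x < bd1 (cl x) := fun x => not_le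
  have hQ2 : ∀ x : {x // bd1 (cl x) ≤ rl x},
      ¬ (bd2 (cl x.1) ≤ rl x.1) ↔ rl x.1 < bd2 (cl x.1) := fun x => not_le
  have b1 : ∀ r c, r < bd1 c ↔ (c < w ∧ r < 16) ∨ (r = 0 ∧ w ≤ c ∧ c < w + e) := by
    intro r c
    simp only [hbd1]
    split_ifs with h1 h2 <;> omega
  have b2 : ∀ r c, r < bd2 c ↔ (c < w - 1 ∧ r < 32) ∨
      (r = 0 ∧ w + e ≤ c ∧ c < w + 2 * e) := by
    intro r c
    simp only [hbd2]
    split_ifs with h1 h2 <;> omega
  obtain ⟨φ, hφ⟩ := exists_equiv (Y := {x // ¬ (bd1 (cl x) ≤ rl x)})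
    (T := (Fin w × Fin 4 × Fin 4) ⊕ Fin e)
    (fun y => rl y.1) (fun y => cl y.1)
    (fun x y h1 h2 => Subtype.ext (hl.inj _ _ h1 h2))
    (Sum.elim (fun p => 4 * (p.2.1 : ℕ) + (p.2.2 : ℕ)) (fun _ => 0))
    (Sum.elim (fun p => (p.1 : ℕ)) (fun s => w + (s : ℕ)))
    (by
      rintro (⟨q, a, g⟩ | s) (⟨q', a', g'⟩ | s') h1 h2
      · simp only [Sum.elim_inl] at h1 h2
        have ha := a.2
        have ha' := a'.2
        have hg := g.2
        have hg' := g'.2
        have e1 : a = a' := Fin.ext (by omega)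
        have e2 : g = g' := Fin.ext (by omega)
        have e3 : q = q' := Fin.ext h2
        rw [e1, e2, e3]
      · simp only [Sum.elim_inl, Sum.elim_inr] at h1 h2
        have := q.2
        omega
      · simp only [Sum.elim_inl, Sum.elim_inr] at h1 h2
        have := q'.2
        omega
      · simp only [Sum.elim_inr] at h1 h2
        have e3 : s = s' := Fin.ext (by omega)
        rw [e3])
    (fun y => by
      rcases (b1 _ _).1 ((hQ y.1).1 y.2) with ⟨h1, h2⟩ | ⟨h1, h2, h3⟩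
      · refine ⟨Sum.inl (⟨cl y.1, h1⟩, ⟨rl y.1 / 4, by omega⟩, ⟨rl y.1 % 4, by omega⟩), ?_, rfl⟩
        show 4 * (rl y.1 / 4) + rl y.1 % 4 = rl y.1
        omega
      · refine ⟨Sum.inr ⟨cl y.1 - w, by omega⟩, h1.symm, ?_⟩
        show w + (cl y.1 - w) = cl y.1
        omega)
    (by
      rintro (⟨q, a, g⟩ | s)
      · have hq := q.2
        have ha := a.2
        have hg := g.2
        obtain ⟨x, hx1, hx2⟩ := hex (4 * (a : ℕ) + g) q (by omega) (by omega)
        refine ⟨⟨x, (hQ x).2 ?_⟩, hx1, hx2⟩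
        rw [hx1, hx2]
        exact (b1 _ _).2 (Or.inl ⟨hq, by omega⟩)
      · have hs := s.2
        obtain ⟨x, hx1, hx2⟩ := hex 0 (w + s) (by omega) (by omega)
        refine ⟨⟨x, (hQ x).2 ?_⟩, hx1, hx2⟩
        rw [hx1, hx2]
        exact (b1 _ _).2 (Or.inr ⟨rfl, by omega, by omega⟩))
  obtain ⟨ψ, hψ⟩ := exists_equiv
    (Y := {x : {x // bd1 (cl x) ≤ rl x} // ¬ (bd2 (cl x.1) ≤ rl x.1)})
    (T := (Fin (w - 1) × Fin 4 × Fin 4) ⊕ Fin e)
    (fun y => rl y.1.1) (fun y => cl y.1.1)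
    (fun x y h1 h2 => Subtype.ext (Subtype.ext (hl.inj _ _ h1 h2)))
    (Sum.elim (fun p => 16 + 4 * (p.2.1 : ℕ) + (p.2.2 : ℕ)) (fun _ => 0))
    (Sum.elim (fun p => (p.1 : ℕ)) (fun s => w + e + (s : ℕ)))
    (by
      rintro (⟨q, a, g⟩ | s) (⟨q', a', g'⟩ | s') h1 h2
      · simp only [Sum.elim_inl] at h1 h2
        have ha := a.2
        have ha' := a'.2
        have hg := g.2
        have hg' := g'.2
        have e1 : a = a' := Fin.ext (by omega)
        have e2 : g = g' := Fin.ext (by omega)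
        have e3 : q = q' := Fin.ext h2
        rw [e1, e2, e3]
      · simp only [Sum.elim_inl, Sum.elim_inr] at h1 h2
        omega
      · simp only [Sum.elim_inl, Sum.elim_inr] at h1 h2
        omega
      · simp only [Sum.elim_inr] at h1 h2
        have e3 : s = s' := Fin.ext (by omega)
        rw [e3])
    (fun y => by
      have hy := y.1.2
      have hy' : ¬ (rl y.1.1 < bd1 (cl y.1.1)) := not_lt.2 hy
      rw [b1] at hy'
      rcases (b2 _ _).1 ((hQ2 y.1).1 y.2) with ⟨h1, h2⟩ | ⟨h1, h2, h3⟩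
      · refine ⟨Sum.inl (⟨cl y.1.1, h1⟩, ⟨(rl y.1.1 - 16) / 4, by omega⟩,
          ⟨(rl y.1.1 - 16) % 4, by omega⟩), ?_, rfl⟩
        show 16 + 4 * ((rl y.1.1 - 16) / 4) + (rl y.1.1 - 16) % 4 = rl y.1.1
        omega
      · refine ⟨Sum.inr ⟨cl y.1.1 - (w + e), by omega⟩, h1.symm, ?_⟩
        show w + e + (cl y.1.1 - (w + e)) = cl y.1.1
        omega)
    (by
      rintro (⟨q, a, g⟩ | s)
      · have hq := q.2
        have ha := a.2
        have hg := g.2
        obtain ⟨x, hx1, hx2⟩ := hex (16 + 4 * (a : ℕ) + g) q (by omega) (by omega)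
        refine ⟨⟨⟨x, ?_⟩, ?_⟩, hx1, hx2⟩
        · refine not_lt.1 fun hlt => ?_
          rw [b1] at hlt
          omega
        · refine (hQ2 ⟨x, _⟩).2 ?_
          show rl x < bd2 (cl x)
          rw [hx1, hx2]
          exact (b2 _ _).2 (Or.inl ⟨hq, by omega⟩)
      · have hs := s.2
        obtain ⟨x, hx1, hx2⟩ := hex 0 (w + e + s) (by omega) (by omega)
        refine ⟨⟨⟨x, ?_⟩, ?_⟩, hx1, hx2⟩
        · refine not_lt.1 fun hlt => ?_
          rw [b1] at hlt
          omega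
        · refine (hQ2 ⟨x, _⟩).2 ?_
          show rl x < bd2 (cl x)
          rw [hx1, hx2]
          exact (b2 _ _).2 (Or.inr ⟨rfl, by omega, by omega⟩))
  have c1 : Fintype.card {x // ¬ (bd1 (cl x) ≤ rl x)} = 16 * w + e := by
    rw [Fintype.card_congr φ]
    simp only [Fintype.card_sum, Fintype.card_prod, Fintype.card_fin]
    ring
  have c2 : Fintype.card {x : {x // bd1 (cl x) ≤ rl x} // ¬ (bd2 (cl x.1) ≤ rl x.1)} =
      16 * (w - 1) + e := by
    rw [Fintype.card_congr ψ]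
    simp only [Fintype.card_sum, Fintype.card_prod, Fintype.card_fin]
    ring
  refine two_step hG hO hU w e k lam B B' (by omega) hs1 hBB hs2 hb hk rl cl hl.inj hcard
    (fun x => bd1 (cl x) ≤ rl x) bd1 hQ (fun x => bd2 (cl x.1) ≤ rl x.1) bd2 hQ2 c1 c2 ?_ ?_
  · refine hB _ w e (k + 4) φ _ _ (by omega) ?_ ?_
    · intro y z
      show cl y.1 = cl z.1 ↔ _
      rw [← (hφ y).2, ← (hφ z).2]
      rcases φ y with ⟨q, a, g⟩ | s <;> rcases φ z with ⟨q', a', g'⟩ | s' <;>
        simp only [Sum.elim_inl, Sum.elim_inr, blk]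
    · intro y z hyz
      have h0 : rl y.1 = rl z.1 := hyz
      rw [← (hφ y).1, ← (hφ z).1] at h0
      revert h0
      rcases φ y with ⟨q, a, g⟩ | s <;> rcases φ z with ⟨q', a', g'⟩ | s' <;>
        intro h0 <;> simp only [Sum.elim_inl, Sum.elim_inr] at h0 <;>
        simp only [ltr, Prod.mk.injEq] <;> omega
  · refine hB _ (w - 1) e k ψ _ _ (by omega) ?_ ?_
    · intro y z
      show cl y.1.1 = cl z.1.1 ↔ _
      rw [← (hψ y).2, ← (hψ z).2]
      rcases ψ y with ⟨q, a, g⟩ | s <;> rcases ψ z with ⟨q', a', g'⟩ | s' <;>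
        simp only [Sum.elim_inl, Sum.elim_inr, blk] <;> omega
    · intro y z hyz
      have h0 : rl y.1.1 = rl z.1.1 := hyz
      rw [← (hψ y).1, ← (hψ z).1] at h0
      revert h0
      rcases ψ y with ⟨q, a, g⟩ | s <;> rcases ψ z with ⟨q', a', g'⟩ | s' <;>
        intro h0 <;> simp only [Sum.elim_inl, Sum.elim_inr] at h0 <;>
        simp only [ltr, Prod.mk.injEq] <;> omega

/-- (REG) -/
theorem reg (hG : PGap) (hO : POccT) (hU : PUniv) (hT : PTriv) (hB : PBlock) : PReg := by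
  intro w e k n lam B B' nu hkw he hs1 hBB hs2 hb hk hn hcase t
  have hl : IsLabel nu.cells (fun x => (t x).1.1) (fun x => (t x).1.2) := by
    refine ⟨fun x => (t x).2, fun x y h1 h2 => t.injective (Subtype.ext (Prod.ext h1 h2)),
      fun c hc => ⟨t.symm ⟨c, hc⟩, ?_, ?_⟩⟩
    · simp only [Equiv.apply_symm_apply]
    · simp only [Equiv.apply_symm_apply]
  have hcard : Fintype.card (Fin n) = 32 * w + 2 * e - 16 + k * (k + 1) / 2 := by
    rw [Fintype.card_fin, hn]
  rcases hcase with h | h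
  · exact reg_row hG hO hU hT w e k lam B B' nu hkw hs1 hBB hs2 hb hk hcard _ _ hl h
  · exact reg_rect hG hO hU hB w e k lam B B' nu hkw he hs1 hBB hs2 hb hk hcard _ _ hl h

end

end Vale.Agent.P197.TS.H44
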